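import Vale.Agent.P092.SN.St
import Vale.Agent.P092.SD.Top
import Vale.Agent.P092.H303.Form

/-!
P092, Team N (helper350): the top of the assembly. `CoreE E` is the core statement for one group
`E`; nothing here depends on the group.
-/

set_option linter.all false

open scoped InnerProductSpace
open ContinuousLinearMap Matrix

namespace Vale.Agent.P092.SN

open Vale.Agent.P092.H160 Vale.Agent.P092.SR Vale.Agent.P092.H515.St

/-- The core statement for the group `E`: `Γ` any ICC lattice, `Λ` any countable ICC group. -/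
def CoreE (E : Type) [Group E] [TopologicalSpace E] : Prop :=
  ∀ (Γ : Subgroup E), IsLattice Γ → (∀ g : Γ, g ≠ 1 → Set.Infinite {y : Γ | ∃ h, y = h * g * h⁻¹}) →
    ∀ {Λ : Type} [Group Λ] [Countable Λ],
      (∀ g : Λ, g ≠ 1 → Set.Infinite {y : Λ | ∃ h, y = h * g * h⁻¹}) →
      ∀ α : Γ →* (Ell2 Λ →L[ℂ] Ell2 Λ), Frame α → RC.MonoV α

theorem super_of_coreE {E : Type} [Group E] [TopologicalSpace E] (h : CoreE E) {Γ : Type} [Group Γ]
    (hicc : SR.St.ICC Γ) (i : Γ →* E) (hi : Function.Injective i) (hl : IsLattice i.range) :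
    SR.St.Super Γ := by
  refine H58.super_equiv (MonoidHom.ofInjective hi) fun Λ _ _ hΛ θ => ?_
  have hicc' := H133.icc_equiv (MonoidHom.ofInjective hi) hicc
  exact SD.canonical_of_hgt hicc' θ fun α hα => SD.hgt_of_mono hα (h i.range hl hicc' hΛ α hα)

/-- A subgroup of finite index of `SL_n(ℤ)` which does not contain `-1` is an ICC lattice of
`SL_n(ℝ)`. -/
theorem slLattice_of_finiteIndex {n : ℕ} (hn : 3 ≤ n) (Γ : Subgroup (SpecialLinearGroup (Fin n) ℤ))
    [Γ.FiniteIndex] (hΓ : ∀ g ∈ Γ, (g : Matrix (Fin n) (Fin n) ℤ) ≠ -1) :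
    St.SlLatticeOver ℝ Γ := by
  refine ⟨icc_of_fi (by omega) Γ hΓ, n, (H670.imR Γ).subtype.comp
    (H670.imEquiv Γ).toMonoidHom, hn, ?_, ?_⟩
  · exact (Subtype.val_injective).comp (H670.imEquiv Γ).injective
  · have h1 : ((H670.imR Γ).subtype.comp (H670.imEquiv Γ).toMonoidHom).range = H670.imR Γ := by
      rw [MonoidHom.range_comp, MonoidHom.range_eq_top.2 (H670.imEquiv Γ).surjective,
        ← MonoidHom.range_eq_map, Subgroup.range_subtype]
    rw [h1]
    have h2 := H19.isLat_imR Γ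
    exact ⟨h2.disc, h2.covol⟩

theorem slLattice_of_over {Γ : Type} [Group Γ] (h : St.SlLatticeOver ℝ Γ) : St.SlLattice Γ := by
  obtain ⟨h1, n, i, hn, hi, hl⟩ := h
  exact ⟨h1, ℝ, inferInstance, n, i, inferInstance, LocK.real (RingEquiv.refl ℝ) fun _ => rfl, hn,
    hi, hl⟩

theorem finalR_of (h : ∀ n, 3 ≤ n → CoreE (SpecialLinearGroup (Fin n) ℝ)) : St.FinalR := by
  have h1 : ∀ (Γ : Type) [Group Γ], St.SlLatticeOver ℝ Γ → SR.St.Super Γ := by
    intro Γ _ hΓ
    obtain ⟨hicc, n, i, hn, hi, hl⟩ := hΓ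
    exact super_of_coreE (h n hn) hicc i hi hl
  exact ⟨h1, fun n hn Γ hΓ hg => h1 Γ (slLattice_of_finiteIndex hn Γ hg)⟩

theorem final1_of (h : ∀ (k : Type) [NontriviallyNormedField k] [ProperSpace k], LocK k →
    ∀ n, 3 ≤ n → CoreE (SpecialLinearGroup (Fin n) k)) : St.Final1 := by
  have h1 : ∀ (Γ : Type) [Group Γ], St.SlLattice Γ → SR.St.Super Γ := by
    intro Γ _ hΓ
    obtain ⟨hicc, k, _, n, i, hp, hk, hn, hi, hl⟩ := hΓ
    exact super_of_coreE (h k hk n hn) hicc i hi hl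
  exact ⟨h1, fun n hn Γ hΓ hg => h1 Γ (slLattice_of_over (slLattice_of_finiteIndex hn Γ hg))⟩

/-- The products: the core statement for `∏ SL_{n_j}(k_j)` gives every ICC lattice, irreducible or
not. -/
theorem superProd_of (h : ∀ (I : Type) [Fintype I] (k : I → Type)
    [∀ j, NontriviallyNormedField (k j)] (n : I → ℕ), (∀ j, ProperSpace (k j)) →
    (∀ j, LocK (k j)) → (∀ j, 3 ≤ n j) → CoreE (∀ j, SpecialLinearGroup (Fin (n j)) (k j))) :
    ∀ (Γ : Type) [Group Γ], St.SlProdLattice Γ → SR.St.Super Γ := by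
  intro Γ _ hΓ
  obtain ⟨hicc, I, _, k, _, n, i, hp, hk, hn, hi, hl⟩ := hΓ
  exact super_of_coreE (h I k n hp hk hn) hicc i hi hl

end Vale.Agent.P092.SN
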