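import Vale.Agent.P092.SN.Blocks2
import Vale.Agent.P092.SN.Top
import Vale.Agent.P092.H264.EndC
import Vale.Agent.P092.H34.PicE
import Vale.Agent.P092.H103.PicT
import Vale.Agent.P092.H933.LocF
import Vale.Agent.P092.H515.LatSl

/-!
P092, TEAM N (helper350): the assembly. `CoreE E` from the joints, for a source group `E` with one
factor, and the final statements for `SL_n(ℝ)` and for `SL_n(k)`, `k` any local field, `n ≥ 3`.
-/

set_option linter.all false

open scoped InnerProductSpace ENNReal LinearAlgebra.Projectivization ZeroAtInfty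
open Filter Topology ContinuousLinearMap MeasureTheory TopologicalSpace Matrix

namespace Vale.Agent.P092.SN

open Vale.Agent.P092.RC (Cm TRN Moore GG PG YY y0 ct)
open Vale.Agent.P092.H100.Gr (Gr)
open Vale.Agent.P092.H35 (sp)
open Vale.Agent.P092.H35.Sig (sgm)

/-! ### From a classical leg to the letters of the END -/

section cleg

variable {k : Type} [NontriviallyNormedField k] {N : ℕ} {Γ : Type} [Group Γ]

/-- `q` as a homomorphism to `PGL_n(k)` -/
noncomputable def qP (q : Γ → GG k N) (h : PH q) : Γ →* PG k (N + 1) :=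
  MonoidHom.mk' (fun γ => sp k (N + 1) (q γ)) fun γ γ' => by
    rw [← map_mul]
    obtain ⟨c, hc⟩ := h γ γ'
    have h1 : q (γ * γ') * (q γ * q γ')⁻¹ = q (γ * γ') * (q γ * q γ')⁻¹ := rfl
    have h2 : sp k (N + 1) (q (γ * γ') * (q γ * q γ')⁻¹) = 1 := by
      rw [H35.sp_one_iff]
      refine ⟨c, ?_⟩
      change (q (γ * γ')).1 * ((q γ * q γ')⁻¹).1 = c • 1
      rw [hc, smul_mul_assoc]
      congr 1
      have h3 : (q γ * q γ') * (q γ * q γ')⁻¹ = 1 := mul_inv_cancel _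
      exact congrArg Subtype.val h3
    rw [map_mul, map_inv, mul_inv_eq_one] at h2
    exact h2

theorem qP_apply (q : Γ → GG k N) (h : PH q) (γ : Γ) : qP q h γ = sp k (N + 1) (q γ) := rfl

/-- the image of a collineation under a homomorphism of fields -/
theorem exists_pg (σ : k →+* k) (g : PG k (N + 1)) :
    ∃ x : PG k (N + 1), ∀ b : YY k N, x • sgm σ (N + 1) b = sgm σ (N + 1) (g • b) := by
  obtain ⟨A, rfl⟩ := QuotientGroup.mk_surjective g
  refine ⟨QuotientGroup.mk (Matrix.GeneralLinearGroup.map σ A), fun b => ?_⟩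
  induction b using Projectivization.ind with
  | h v hv =>
    rw [H789.mk_smul, H789.mk_smul, Projectivization.smul_mk, H35.Sig.sgm_mk,
      H35.Sig.sgm_mk, Projectivization.smul_mk]
    congr 1
    funext i
    change ((Matrix.GeneralLinearGroup.map σ A).1 *ᵥ fun i => σ (v i)) i = σ ((A.1 *ᵥ v) i)
    rw [RingHom.map_mulVec]
    rfl

variable [ProperSpace k] {E K : Type} [Group E] [TopologicalSpace E] [NormedAddCommGroup K]
  [InnerProductSpace ℂ K] [CompleteSpace K]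

theorem cleg_of {a : E →* PG k (N + 1)} {π : E →* (K →L[ℂ] K)} {lam : Γ →* (K →L[ℂ] K)}
    {W : Set (K →L[ℂ] K)} {q : Γ → GG k N} {Ec : YY k N → (CY k N →⋆ₐ[ℂ] (K →L[ℂ] K))}
    {σ : k →+* k} {Q : C₀(PG k (N + 1), ℂ) →⋆ₙₐ[ℂ] (K →L[ℂ] K)}
    (h : ClsN a π lam W q Ec σ Q) (hq : PH q) (hi : ∀ γ, sp k (N + 1) (q γ) = 1 → γ = 1)
    (hd : ∀ C : ℝ, {γ : Γ | nm (q γ) ≤ C}.Finite) :
    H264.Cl.CLeg π lam W (qP q hq) Q where
  nd := h.nd
  cm := h.cm
  cov γ ψ ψ' hψ := h.cov γ ψ ψ' hψ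
  pcov e ψ := by
    obtain ⟨x, hx⟩ := exists_pg σ (a e)
    refine ⟨⟨⟨fun y => ψ (y * x), by fun_prop⟩, ?_⟩, h.pcov e x hx ψ _ fun y => rfl⟩
    exact ψ.zero_at_infty'.comp (Homeomorph.mulRight x).isClosedEmbedding.tendsto_cocompact
  inj := (injective_iff_map_eq_one _).2 fun γ hγ => hi γ hγ
  disc C hC := by
    have h1 := H35.sp_proper (Nat.succ_ne_zero N) hC hC.isClosed
    obtain ⟨R, hR⟩ := (h1.image (f := fun g : GG k N => nm g) (by
      have h2 : Continuous fun g : GG k N => g.1 := continuous_subtype_val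
      exact H35.nmx_cont.comp h2)).bddAbove
    exact (hd R).subset fun γ hγ => hR ⟨q γ, hγ, rfl⟩

end cleg

/-! ### The assembly for one factor -/

section main

open Vale.Agent.P092.SR Vale.Agent.P092.H160
open Vale.Agent.P092.RC (KK pic lam₁ lam₂ XX Om)

/-- **Assembly.** -/
theorem coreE_of {k : Type} [NontriviallyNormedField k] [ProperSpace k] [MeasurableSpace k]
    {μ : Measure k} {N : ℕ} {E : Type} [Group E] [TopologicalSpace E]
    [IsTopologicalGroup E] [LocallyCompactSpace E] [SecondCountableTopology E] [T2Space E]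
    [NoncompactSpace E] {ι : GG k N →* E} {a a' : E →* PG k (N + 1)}
    (hLC : LegComm k μ) (hCls : ClsStmt k μ) (hXC : XCStmt k) (hEx : ExStmt k μ ι a a') :
    CoreE E := by
  intro Γ hΓ hicc Λ _ _ hΛ α hα
  letI : MeasurableSpace E := borel _
  haveI : BorelSpace E := ⟨rfl⟩
  haveI hd : DiscreteTopology Γ := hΓ.disc
  haveI hc : Countable Γ := H790.countable_of_discrete (E := E) Γ
  letI : MeasurableSpace (E ⧸ Γ) := borel _
  haveI : BorelSpace (E ⧸ Γ) := ⟨rfl⟩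
  obtain ⟨ν, hP', hν⟩ := H515.IsLattice.exists_prob (Λ := Γ) ⟨hΓ.disc, hΓ.covol⟩
  have p2 := H34.PicC.pic2 hν hα hΛ
  have tv1 : TVE (pic hν hα) (lam₁ ν α) (XX ν Λ ∪ Set.range (lam₂ ν α)) (Om ν Λ) := by
    rintro Y ⟨hY, hY1⟩ h
    exact H103.tv_gen hν hα (fun A hA => hY _ (Or.inl ⟨A, hA, rfl⟩)) hY1
      (fun g => hY _ (Or.inr ⟨g, rfl⟩)) h
  have tv2 : TVE (pic hν hα) (lam₂ ν α) (XX ν Λ ∪ Set.range (lam₁ ν α)) (Om ν Λ) := by
    rintro Y ⟨hY, hY1⟩ h
    exact H103.tv_gen hν hα (fun A hA => hY _ (Or.inl ⟨A, hA, rfl⟩))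
      (fun g => hY _ (Or.inr ⟨g, rfl⟩)) hY1 h
  obtain ⟨w, m₁, m₂, q₁, q₂, E₁, F₁, E₂, F₂, l1, l2, i1, i2, d1, d2⟩ :=
    hEx (Γ := Γ) hν hΓ hicc hΛ hα
  obtain ⟨G₁, c1, k1⟩ := hLC w ι a a' _ _ _ _ m₁ q₁ _ E₁ F₁ l1
  obtain ⟨G₂, c2, k2⟩ := hLC w ι a a' _ _ _ _ m₂ q₂ _ E₂ F₂ l2
  obtain ⟨σ₁, Q₁, hQ1⟩ := hCls w ι a a' _ _ _ _ m₁ q₁ _ E₁ F₁ G₁ l1 c1 k1
  obtain ⟨σ₂, Q₂, hQ2⟩ := hCls w ι a a' _ _ _ _ m₂ q₂ _ E₂ F₂ G₂ l2 c2 k2
  have hX := hXC ι a a' _ _ _ _ _ q₁ q₂ E₁ E₂ σ₁ σ₂ Q₁ Q₂ l1.adm p2 tv1 tv2 l1.ph l2.ph d1 d2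
    hQ1 hQ2
  exact H264.Cl.mono_of_legs hν hα (cleg_of hQ1 l1.ph i1 d1) (cleg_of hQ2 l2.ph i2 d2) hX

/-- The core statement for `SL_n(k)`, `n ≥ 3`. -/
theorem coreE_sl {k : Type} [NontriviallyNormedField k] [ProperSpace k] [MeasurableSpace k]
    {μ : Measure k} (hLC : LegComm k μ) (hCls : ClsStmt k μ) (hXC : XCStmt k) (hEx : ExSl k μ)
    {n : ℕ} (hn : 3 ≤ n) : CoreE (SpecialLinearGroup (Fin n) k) := by
  obtain ⟨N, rfl⟩ : ∃ N, n = N + 1 := ⟨n - 1, by omega⟩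
  haveI : LocallyCompactSpace (GG k N) := H303.locallyCompact_SL
  haveI : SecondCountableTopology (GG k N) := H303.secondCountable_SL
  haveI : NoncompactSpace (GG k N) := by
    refine H34.PicC.sl_noncompact (i := (0 : Fin (N + 1))) (j := ⟨1, by omega⟩) ?_
    intro h
    exact absurd (congrArg Fin.val h) (by norm_num)
  exact coreE_of (E := GG k N) hLC hCls hXC (hEx (by omega))

/-- **The final statement over `ℝ`.** -/
theorem finalR (h1 : W0Stmt ℝ volume) (h2 : RkIStmt ℝ volume) (h3 : KeyStmt ℝ volume)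
    (h4 : ClsStmt ℝ volume) (h5 : XCStmt ℝ) (h6 : ExSl ℝ volume) : St.FinalR :=
  finalR_of fun _ hn => coreE_sl (legComm_of h1 h2 h3) h4 h5 h6 hn

theorem lk {k : Type} [NontriviallyNormedField k] (h : H515.St.LocK k) : H933.LocK k := by
  cases h with
  | real φ h => exact .real φ h
  | cplx φ h => exact .cplx φ h
  | ultra h => exact .ultra h

/-- **The final statement for all local fields.** -/
theorem final1 (h : ∀ (k : Type) [NontriviallyNormedField k] [ProperSpace k] [MeasurableSpace k]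
    [BorelSpace k] (μ : Measure k) [μ.IsAddHaarMeasure], H933.LocK k →
    W0Stmt k μ ∧ RkIStmt k μ ∧ KeyStmt k μ ∧ ClsStmt k μ ∧ XCStmt k ∧ ExSl k μ) : St.Final1 := by
  refine final1_of fun k _ _ hk n hn => ?_
  letI : MeasurableSpace k := borel k
  haveI : BorelSpace k := ⟨rfl⟩
  obtain ⟨h1, h2, h3, h4, h5, h6⟩ := h k (Measure.addHaar : Measure k) (lk hk)
  exact coreE_sl (legComm_of h1 h2 h3) h4 h5 h6 hn

end main

end Vale.Agent.P092.SN
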