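import Vale.Agent.P092.H790.CTA
import Vale.Agent.P092.RC.Cc
import Vale.Agent.P092.H789.Fr
import Vale.Agent.P092.H644.Gr3
import Vale.Agent.P092.H100.Gr2
import Vale.Agent.P092.H218.NChain

/-!
P092, TEAM N: interface file (architect helper232). `n = N + 1 ≥ 3`, `k` any local field.

* `GG k N = SL_(N+1)(k)`, `YY k N` = points of the projective space, also hyperplanes (in
  coordinates), `Gr k (Fin (N+1)) j` = subspaces of dimension `j`, `PG k (N+1) = PGL_(N+1)(k)`.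
* SOURCE: a group `E` (`SL_n(k)`, `PSL_n(k)`, `PGL_n(k)`, or a finite product which contains such a
  factor), `ι : SL_n(k) →* E`, `a, a' : E →* PGL_n(k)` its action on points and on hyperplanes
  (structure `Adm`). The picture is `RC.Pic π lam W Ω` for the whole group `E`.
* TARGET: `q : Γ → SL_n(k)`, a homomorphism modulo scalars (`PH q`), `Z R ⊆ Γ` an increasing family
  of sets on which the other coordinates are bounded (`Z R = Γ` for one factor).
* DUAL PICTURE: replace `ι, a, a', q` by `ι ∘ ct, a', a, ct ∘ q` (`ct g = (g⁻¹)ᵀ`).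
-/

set_option linter.all false

open scoped InnerProductSpace ENNReal LinearAlgebra.Projectivization
open Filter Topology ContinuousLinearMap MeasureTheory TopologicalSpace

namespace Vale.Agent.P092.SN

open Vale.Agent.P092.SD (Ms UC)
open Vale.Agent.P092.RC (Cm TRN Moore GG PG YY y0 ct)
open Vale.Agent.P092.H790.CTA (ORBG SIZEG)
open Vale.Agent.P092.H100.Gr (Gr)
open Vale.Agent.P092.H644.Gr3 (p1 hyp)

/-! ### Points, hyperplanes, walls, sizes -/

section geo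

variable {k : Type} [NontriviallyNormedField k] {N : ℕ}

/-- functions of points / of hyperplanes -/
abbrev CY (k : Type) [NontriviallyNormedField k] (N : ℕ) := C(YY k N, ℂ)

/-- functions of `j`-dimensional subspaces -/
abbrev CG (k : Type) [NontriviallyNormedField k] (N j : ℕ) := C(Gr k (Fin (N + 1)) j, ℂ)

/-- incidence of points and hyperplanes -/
def inc (x l : YY k N) : Prop := Projectivization.orthogonal x l

/-- no point of `A` is on a hyperplane of `B` -/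
def NInc (A B : Set (YY k N)) : Prop := ∀ x ∈ A, ∀ l ∈ B, ¬ inc x l

/-- the wall element `diag(w^{-N}, w, …, w)`; it fixes the point `y0 = [e_0]`; `‖w‖ < 1` -/
def bw (w : kˣ) : GG k N :=
  ⟨Matrix.diagonal fun i => if i = 0 then ((w⁻¹ : kˣ) : k) ^ N else (w : k), by
    rw [Matrix.det_diagonal, Fin.prod_univ_succ]
    have h : ((w⁻¹ : kˣ) : k) * (w : k) = 1 := by rw [← Units.val_mul]; simp
    simp only [if_true, Fin.succ_ne_zero, if_false, Finset.prod_const, Finset.card_univ,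
      Fintype.card_fin]
    rw [← mul_pow, h, one_pow]⟩

/-- the root group `1 + s E_0j` -/
def un {j : Fin (N + 1)} (hj : (0 : Fin (N + 1)) ≠ j) (s : k) : GG k N :=
  Matrix.SpecialLinearGroup.transvection hj s

/-- the maximum of the norms of the entries -/
noncomputable def nm (h : GG k N) : ℝ := ‖(fun i j => h.1 i j : Fin (N + 1) → Fin (N + 1) → k)‖

/-- near-wall elements of type 1: `σ₂ ⋯ σ_N ≤ R σ_(N+1)^(N-1)` -/
def NW (R : ℝ) (h : GG k N) : Prop := nm h⁻¹ ^ N ≤ R * nm h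

/-- the attracting point of `h` is in `A`, up to an error `1/T` -/
def Att (T : ℝ) (A : Set (YY k N)) (h : GG k N) : Prop :=
  ∃ (v φ : Fin (N + 1) → k) (hv : v ≠ 0), Projectivization.mk k v hv ∈ A ∧
    ∀ i j, ‖h.1 i j - v i * φ j‖ ≤ nm h / T

/-- translation of functions: `act g f = f ∘ g⁻¹` -/
noncomputable def act (g : GG k N) (f : CY k N) : CY k N :=
  ⟨fun x => f (g⁻¹ • x), f.continuous.comp (continuous_const_smul g⁻¹)⟩

/-- homomorphisms modulo scalars -/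
def PH {Γ : Type} [Group Γ] (q : Γ → GG k N) : Prop :=
  ∀ γ γ', ∃ c : k, (q (γ * γ')).1 = c • (q γ * q γ').1

/-- `Z ⊆ Γ` is uniformly discrete under `q` -/
def UD {Γ : Type} (q : Γ → GG k N) (Z : Set Γ) : Prop :=
  ∀ C : ℝ, ∃ M : ℕ, ∀ S : Finset Γ, (∀ γ ∈ S, γ ∈ Z) →
    (∀ γ ∈ S, ∀ γ' ∈ S, nm (q γ' * (q γ)⁻¹) ≤ C) → S.card ≤ M

/-- near-wall elements of `Γ` whose attracting point is in `A` -/
def NWA {Γ : Type} (q : Γ → GG k N) (Z : ℝ → Set Γ) (R T : ℝ) (A : Set (YY k N)) : Set Γ :=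
  {γ | γ ∈ Z R ∧ NW R (q γ) ∧ Att T A (q γ)}

end geo

section geo2

variable {k : Type} [NontriviallyNormedField k] [ProperSpace k] {N : ℕ}

/-- translation of functions of subspaces -/
noncomputable def actG {j : ℕ} (g : GG k N) (f : CG k N j) : CG k N j :=
  ⟨fun x => f (g⁻¹ • x), f.continuous.comp (continuous_const_smul g⁻¹)⟩

/-- a function of `1`-dimensional subspaces as a function of points -/
noncomputable def fp (f : CG k N 1) : CY k N :=
  ⟨fun x => f (p1 x), f.continuous.comp H644.Gr3.p1_cont⟩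

/-- a function of `N`-dimensional subspaces as a function of hyperplanes -/
noncomputable def fh (f : CG k N N) : CY k N :=
  ⟨fun x => f (hyp x), f.continuous.comp H644.Gr3.hyp_cont⟩

end geo2

/-! ### The source group -/

/-- `e` preserves the subspace `X` -/
def Prv {k : Type} [NontriviallyNormedField k] {N : ℕ} {E : Type} [Group E]
    (a : E →* PG k (N + 1)) (X : Submodule k (Fin (N + 1) → k)) (e : E) : Prop :=
  ∀ x : YY k N, x.submodule ≤ X ↔ (a e • x).submodule ≤ X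

/-- admissible source groups -/
structure Adm {k : Type} [NontriviallyNormedField k] {N : ℕ} {E : Type} [Group E]
    [TopologicalSpace E] (ι : GG k N →* E) (a a' : E →* PG k (N + 1)) : Prop where
  hN : 2 ≤ N
  tg : IsTopologicalGroup E
  cι : Continuous ι
  ca : Continuous a
  ca' : Continuous a'
  comp : ∀ g (x : YY k N), a (ι g) • x = g • x
  comp' : ∀ g (x : YY k N), a' (ι g) • x = ct g • x
  ort : ∀ e (x l : YY k N), inc (a e • x) (a' e • l) ↔ inc x l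
  /-- Howe-Moore: the stabiliser of two subspaces -/
  stb : ∀ X Y : Submodule k (Fin (N + 1) → k), Moore {e | Prv a X e ∧ Prv a Y e}

/-! ### One leg -/

section pic

variable {k : Type} [NontriviallyNormedField k] [ProperSpace k] {N : ℕ} {E Γ K : Type} [Group E]
  [TopologicalSpace E] [Group Γ] [NormedAddCommGroup K] [InnerProductSpace ℂ K] [CompleteSpace K]

/-- (NWS) near-wall mass, uniformly in `t` -/
def NWS (w : kˣ) (ι : GG k N →* E) (π : E →* (K →L[ℂ] K)) (Ω : K)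
    (m : Set Γ → (K →L[ℂ] K)) (q : Γ → GG k N) (Z : ℝ → Set Γ) : Prop :=
  ∀ g : GG k N, ∀ ε > 0, ∃ R : ℝ, ∀ t : ℕ,
    ‖m {γ | ¬ (γ ∈ Z R ∧ NW R (q γ))} (π (ι (g * bw w ^ t * g⁻¹))⁻¹ Ω)‖ ≤ ε

/-- The boundary calculi of the points of the source. For the hyperplanes:
`EFam w (ι.comp ct) a' π lam W m (fun γ => ct (q γ)) Z F`. -/
structure EFam (w : kˣ) (ι : GG k N →* E) (a : E →* PG k (N + 1)) (π : E →* (K →L[ℂ] K))
    (lam : Γ →* (K →L[ℂ] K)) (W : Set (K →L[ℂ] K)) (m : Set Γ → (K →L[ℂ] K)) (q : Γ → GG k N)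
    (Z : ℝ → Set Γ) (Ec : YY k N → (CY k N →⋆ₐ[ℂ] (K →L[ℂ] K))) : Prop where
  cm : ∀ x f, Cm W (Ec x f)
  cov : ∀ γ x f, lam γ * Ec x f * lam γ⁻¹ = Ec x (act (q γ) f)
  pcov : ∀ e x f, π e * Ec x f * π e⁻¹ = Ec (a e • x) f
  /-- domination by the limits of the cut-offs -/
  dom : ∀ (g : GG k N) (u : CY k N) (A : Set (YY k N)), IsOpen A → tsupport u ⊆ A → ∀ ζ : K,
    ∀ ε > 0, ∃ R : ℝ, ∀ T > 0, ∀ᶠ t : ℕ in atTop,
      ‖Ec (g • y0) u ζ‖ ≤ ‖u‖ * ‖m (NWA q Z R T A) (π (ι (g * bw w ^ t * g⁻¹))⁻¹ ζ)‖ + ε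
  /-- two different points agree nowhere -/
  agr : ∀ x y, x ≠ y → ∀ ξ, (∀ f, Ec x f ξ = Ec y f ξ) → ξ = 0

/-- One leg: everything the analysis delivers. -/
structure LegN [MeasurableSpace k] (μ : Measure k) (w : kˣ) (ι : GG k N →* E)
    (a a' : E →* PG k (N + 1)) (π : E →* (K →L[ℂ] K)) (lam : Γ →* (K →L[ℂ] K))
    (W : Set (K →L[ℂ] K)) (Ω : K) (m : Set Γ → (K →L[ℂ] K)) (q : Γ → GG k N) (Z : ℝ → Set Γ)
    (Ec F : YY k N → (CY k N →⋆ₐ[ℂ] (K →L[ℂ] K))) : Prop where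
  adm : Adm ι a a'
  hw : ‖(w : k)‖ < 1
  pic : RC.Pic π lam W Ω
  ms : Ms lam W Ω m
  uc : UC π W Ω m
  ph : PH q
  zm : Monotone Z
  ud : ∀ R, UD q (Z R)
  orb : ∀ {j : Fin (N + 1)} (hj : (0 : Fin (N + 1)) ≠ j), ∃ ρ : ℝ, 0 < ρ ∧ ρ < 1 ∧
    ORBG μ (ι (bw w)) (fun s => ι (un hj s)) ρ π lam W Ω
  orb' : ∀ {j : Fin (N + 1)} (hj : (0 : Fin (N + 1)) ≠ j), ∃ ρ : ℝ, 0 < ρ ∧ ρ < 1 ∧
    ORBG μ (ι (ct (bw w))) (fun s => ι (ct (un hj s))) ρ π lam W Ω
  size : SIZEG (ι (bw w)) π Ω m fun γ => nm (q γ)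
  size' : SIZEG (ι (ct (bw w))) π Ω m fun γ => nm (ct (q γ))
  nws : NWS w ι π Ω m q Z
  nws' : NWS w (ι.comp ct) π Ω m (fun γ => ct (q γ)) Z
  e : EFam w ι a π lam W m q Z Ec
  f : EFam w (ι.comp ct) a' π lam W m (fun γ => ct (q γ)) Z F
  /-- no `Γ`-invariant state on the functions of subspaces: `NIS fun γ x => q γ • x` -/
  nis : ∀ j, 1 ≤ j → j ≤ N → ∀ φ : CG k N j →ₗ[ℂ] ℂ, (∀ f, 0 ≤ (φ (star f * f)).re) →
    φ 1 = 1 → (∀ γ, ∀ f f' : CG k N j, (∀ x, f' (q γ • x) = f x) → φ f' = φ f) → False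

/-- The calculi of all subspaces: output of the rank count. -/
structure CalN (ι : GG k N →* E) (π : E →* (K →L[ℂ] K)) (lam : Γ →* (K →L[ℂ] K))
    (W : Set (K →L[ℂ] K)) (q : Γ → GG k N) (Ec F : YY k N → (CY k N →⋆ₐ[ℂ] (K →L[ℂ] K)))
    (G : ∀ j, Gr k (Fin (N + 1)) j → (CG k N j →⋆ₐ[ℂ] (K →L[ℂ] K))) : Prop where
  cal : H218.NC.Cal G
  pnt : ∀ c f, G 1 (p1 c) f = Ec c (fp f)
  top : ∀ M f, G N (hyp M) f = F M (fh f)
  cm : ∀ j, 1 ≤ j → j ≤ N → ∀ X f, Cm W (G j X f)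
  cov : ∀ j, 1 ≤ j → j ≤ N → ∀ γ X f, lam γ * G j X f * lam γ⁻¹ = G j X (actG (q γ) f)
  pcov : ∀ j, 1 ≤ j → j ≤ N → ∀ g X f, π (ι g) * G j X f * π (ι g)⁻¹ = G j (g • X) f
  cen : ∀ j, 1 ≤ j → j ≤ N → ∀ X (T : K →L[ℂ] K),
    (∀ M f, X.1 ≤ (hyp M).1 → T * F M f = F M f * T) → ∀ f, T * G j X f = G j X f * T

end pic

end Vale.Agent.P092.SN
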