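import Vale.Agent.P092.SN.Blocks
import Vale.Agent.P092.H218.NAll
import Vale.Agent.P092.H35.Sig
import Vale.Agent.P092.H34.PicD

/-!
P092, TEAM N (helper350): the second half of the joints (the classical leg, the cross leg, the
concrete picture). Every `Stmt` is a literal `Prop`; `SN/Main.lean` derives `CoreE` from them.
-/

set_option linter.all false

open scoped InnerProductSpace ENNReal LinearAlgebra.Projectivization ZeroAtInfty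
open Filter Topology ContinuousLinearMap MeasureTheory TopologicalSpace

namespace Vale.Agent.P092.SN

open Vale.Agent.P092.RC (Cm TRN Moore GG PG YY y0 ct)
open Vale.Agent.P092.H100.Gr (Gr)
open Vale.Agent.P092.H35 (sp)
open Vale.Agent.P092.H35.Sig (sgm)

section pic

variable {k : Type} [NontriviallyNormedField k] [ProperSpace k] {N : ℕ} {E Γ K : Type} [Group E]
  [TopologicalSpace E] [Group Γ] [NormedAddCommGroup K] [InnerProductSpace ℂ K] [CompleteSpace K]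

/-- [N-CLS] The calculus of the collineation `x` with `Ec b f = f (x • sgm σ b)`. -/
structure ClsN (a : E →* PG k (N + 1)) (π : E →* (K →L[ℂ] K)) (lam : Γ →* (K →L[ℂ] K))
    (W : Set (K →L[ℂ] K)) (q : Γ → GG k N) (Ec : YY k N → (CY k N →⋆ₐ[ℂ] (K →L[ℂ] K)))
    (σ : k →+* k) (Q : C₀(PG k (N + 1), ℂ) →⋆ₙₐ[ℂ] (K →L[ℂ] K)) : Prop where
  nd : ∀ ξ, (∀ ψ, Q ψ ξ = 0) → ξ = 0
  cm : ∀ ψ, Cm W (Q ψ)
  cov : ∀ γ (ψ ψ' : C₀(PG k (N + 1), ℂ)), (∀ x, ψ' x = ψ ((sp k (N + 1) (q γ))⁻¹ * x)) →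
    lam γ * Q ψ * lam γ⁻¹ = Q ψ'
  /-- `e` acts on the right by the collineation `x` -/
  pcov : ∀ e (x : PG k (N + 1)), (∀ b : YY k N, x • sgm σ (N + 1) b = sgm σ (N + 1) (a e • b)) →
    ∀ ψ ψ' : C₀(PG k (N + 1), ℂ), (∀ y, ψ' y = ψ (y * x)) → π e * Q ψ * π e⁻¹ = Q ψ'
  mulE : ∀ b (f : CY k N) (ψ ψ' : C₀(PG k (N + 1), ℂ)),
    (∀ x, ψ' x = f (x • sgm σ (N + 1) b) * ψ x) → Ec b f * Q ψ = Q ψ'

/-- (TV) the vector state of `Ω` on the operators commuting with everything but `π` is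
`π`-invariant -/
def TVE (π : E →* (K →L[ℂ] K)) (lam : Γ →* (K →L[ℂ] K)) (W : Set (K →L[ℂ] K)) (Ω : K) : Prop :=
  ∀ Y ∈ SD.MM lam W, ∀ h : E, ⟪π h Ω, Y (π h Ω)⟫_ℂ = ⟪Ω, Y Ω⟫_ℂ

end pic

section stmts

variable (k : Type) [NontriviallyNormedField k] [ProperSpace k]

/-- **[N-CLS]** (helper121) -/
def ClsStmt [MeasurableSpace k] (μ : Measure k) : Prop :=
  ∀ {N : ℕ} {E Γ K : Type} [Group E] [TopologicalSpace E] [Group Γ] [NormedAddCommGroup K]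
    [InnerProductSpace ℂ K] [CompleteSpace K] (w : kˣ) (ι : GG k N →* E)
    (a a' : E →* PG k (N + 1)) (π : E →* (K →L[ℂ] K)) (lam : Γ →* (K →L[ℂ] K))
    (W : Set (K →L[ℂ] K)) (Ω : K) (m : Set Γ → (K →L[ℂ] K)) (q : Γ → GG k N) (Z : ℝ → Set Γ)
    (Ec F : YY k N → (CY k N →⋆ₐ[ℂ] (K →L[ℂ] K)))
    (G : ∀ j, Gr k (Fin (N + 1)) j → (CG k N j →⋆ₐ[ℂ] (K →L[ℂ] K))),
    LegN μ w ι a a' π lam W Ω m q Z Ec F → CalN ι π lam W q Ec F G → H218.NC.Key₁ G →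
    ∃ (σ : k →+* k) (Q : C₀(PG k (N + 1), ℂ) →⋆ₙₐ[ℂ] (K →L[ℂ] K)), ClsN a π lam W q Ec σ Q

/-- **[N-XC]** (helper325) the two legs commute (one factor) -/
def XCStmt : Prop :=
  ∀ {N : ℕ} {E Γ K : Type} [Group E] [TopologicalSpace E] [Group Γ] [Countable Γ]
    [NormedAddCommGroup K] [InnerProductSpace ℂ K] [CompleteSpace K] (ι : GG k N →* E)
    (a a' : E →* PG k (N + 1)) (π : E →* (K →L[ℂ] K)) (lam₁ lam₂ : Γ →* (K →L[ℂ] K))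
    (X : Set (K →L[ℂ] K)) (Ω : K) (q₁ q₂ : Γ → GG k N)
    (E₁ E₂ : YY k N → (CY k N →⋆ₐ[ℂ] (K →L[ℂ] K))) (σ₁ σ₂ : k →+* k)
    (Q₁ Q₂ : C₀(PG k (N + 1), ℂ) →⋆ₙₐ[ℂ] (K →L[ℂ] K)),
    Adm ι a a' → RC.Pic2 π lam₁ lam₂ X Ω → TVE π lam₁ (X ∪ Set.range lam₂) Ω →
    TVE π lam₂ (X ∪ Set.range lam₁) Ω → PH q₁ → PH q₂ →
    (∀ C : ℝ, {γ : Γ | nm (q₁ γ) ≤ C}.Finite) → (∀ C : ℝ, {γ : Γ | nm (q₂ γ) ≤ C}.Finite) →
    ClsN a π lam₁ (X ∪ Set.range lam₂) q₁ E₁ σ₁ Q₁ →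
    ClsN a π lam₂ (X ∪ Set.range lam₁) q₂ E₂ σ₂ Q₂ →
    ∀ ψ φ, Commute (Q₁ ψ) (Q₂ φ)

open Vale.Agent.P092.SR Vale.Agent.P092.H160 Vale.Agent.P092.RC in
/-- **[N-EX]** (helper859, 368) the concrete picture over a source group `E` with one factor: both
legs and their calculi -/
def ExStmt [MeasurableSpace k] (μ : Measure k) {N : ℕ} {E : Type} [Group E] [TopologicalSpace E]
    [IsTopologicalGroup E] [LocallyCompactSpace E] [SecondCountableTopology E] [T2Space E]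
    (ι : GG k N →* E) (a a' : E →* PG k (N + 1)) : Prop :=
  ∀ [MeasurableSpace E] [BorelSpace E] {Γ : Subgroup E} [DiscreteTopology Γ] [Countable Γ]
    [MeasurableSpace (E ⧸ Γ)] [BorelSpace (E ⧸ Γ)] {ν : Measure (E ⧸ Γ)}
    [IsProbabilityMeasure ν] (hν : ∀ g : E, ν.map (fun x => g • x) = ν)
    (_ : H515.St.IsLattice Γ) (_ : ∀ g : Γ, g ≠ 1 → Set.Infinite {y : Γ | ∃ h, y = h * g * h⁻¹})
    {Λ : Type} [Group Λ] [Countable Λ]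
    (_ : ∀ g : Λ, g ≠ 1 → Set.Infinite {y : Λ | ∃ h, y = h * g * h⁻¹})
    {α : Γ →* (Ell2 Λ →L[ℂ] Ell2 Λ)} (hα : Frame α),
    ∃ (w : kˣ) (m₁ m₂ : Set Γ → (KK ν Λ →L[ℂ] KK ν Λ)) (q₁ q₂ : Γ → GG k N)
      (E₁ F₁ E₂ F₂ : YY k N → (CY k N →⋆ₐ[ℂ] (KK ν Λ →L[ℂ] KK ν Λ))),
      LegN μ w ι a a' (pic hν hα) (lam₁ ν α) (XX ν Λ ∪ Set.range (lam₂ ν α)) (Om ν Λ) m₁ q₁
        (fun _ => Set.univ) E₁ F₁ ∧
      LegN μ w ι a a' (pic hν hα) (lam₂ ν α) (XX ν Λ ∪ Set.range (lam₁ ν α)) (Om ν Λ) m₂ q₂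
        (fun _ => Set.univ) E₂ F₂ ∧
      (∀ γ, sp k (N + 1) (q₁ γ) = 1 → γ = 1) ∧ (∀ γ, sp k (N + 1) (q₂ γ) = 1 → γ = 1) ∧
      (∀ C : ℝ, {γ : Γ | nm (q₁ γ) ≤ C}.Finite) ∧ (∀ C : ℝ, {γ : Γ | nm (q₂ γ) ≤ C}.Finite)

/-- **[N-EX]** for `E = SL_n(k)`, all `n ≥ 3` -/
def ExSl [MeasurableSpace k] (μ : Measure k) : Prop :=
  ∀ {N : ℕ}, 2 ≤ N → ∀ [LocallyCompactSpace (GG k N)] [SecondCountableTopology (GG k N)],
    ExStmt k μ (MonoidHom.id (GG k N)) (sp k (N + 1)) ((sp k (N + 1)).comp ct)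

end stmts

end Vale.Agent.P092.SN
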