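import Vale.Agent.P092.SN.Defs

/-!
P092, TEAM N: the joints of one leg (helper232). Every `Stmt` is a literal `Prop`.
-/

set_option linter.all false

open scoped InnerProductSpace ENNReal LinearAlgebra.Projectivization ZeroAtInfty
open Filter Topology ContinuousLinearMap MeasureTheory TopologicalSpace

namespace Vale.Agent.P092.SN

open Vale.Agent.P092.SD (Ms UC)
open Vale.Agent.P092.RC (Cm TRN Moore GG PG YY y0 ct)
open Vale.Agent.P092.H790.CTA (ORBG SIZEG)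
open Vale.Agent.P092.H100.Gr (Gr)
open Vale.Agent.P092.H644.Gr3 (p1 hyp)

/-- the words in the hyperplane calculi of the hyperplanes through the point `c` -/
noncomputable def WA {k : Type} [NontriviallyNormedField k] {N : ℕ} {K : Type}
    [NormedAddCommGroup K] [InnerProductSpace ℂ K] [CompleteSpace K]
    (F : YY k N → (CY k N →⋆ₐ[ℂ] (K →L[ℂ] K))) (c : YY k N) : StarSubalgebra ℂ (K →L[ℂ] K) :=
  StarAlgebra.adjoin ℂ {T | ∃ M f, inc c M ∧ T = F M f}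

/-- (W0), the word lemma -/
def W0 {k : Type} [NontriviallyNormedField k] {N : ℕ} {K : Type}
    [NormedAddCommGroup K] [InnerProductSpace ℂ K] [CompleteSpace K]
    (Ec F : YY k N → (CY k N →⋆ₐ[ℂ] (K →L[ℂ] K))) : Prop :=
  ∀ c : YY k N, ∀ T ∈ WA F c, ∀ M, inc c M → ∀ u h : CY k N,
    NInc (tsupport u) (tsupport h) → Ec c u * T * F M h = 0

/-- exact incidence and commutation of the calculus of a point and the calculus of a line through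
it -/
structure PL {k : Type} [NontriviallyNormedField k] [ProperSpace k] {N : ℕ} {K : Type}
    [NormedAddCommGroup K] [InnerProductSpace ℂ K] [CompleteSpace K]
    (b : CG k N 1 →⋆ₐ[ℂ] (K →L[ℂ] K)) (l : CG k N 2 →⋆ₐ[ℂ] (K →L[ℂ] K)) : Prop where
  com : ∀ f g, Commute (b f) (l g)
  inc : ∀ u h, H232.Nin H218.NC.In u h → b u * l h = 0

section stmts

variable (k : Type) [NontriviallyNormedField k] [ProperSpace k]

/-- **[N-W0]** (helper437, 596) -/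
def W0Stmt [MeasurableSpace k] (μ : Measure k) : Prop :=
  ∀ {N : ℕ} {E Γ K : Type} [Group E] [TopologicalSpace E] [Group Γ] [NormedAddCommGroup K]
    [InnerProductSpace ℂ K] [CompleteSpace K] (w : kˣ) (ι : GG k N →* E)
    (a a' : E →* PG k (N + 1)) (π : E →* (K →L[ℂ] K)) (lam : Γ →* (K →L[ℂ] K))
    (W : Set (K →L[ℂ] K)) (Ω : K) (m : Set Γ → (K →L[ℂ] K)) (q : Γ → GG k N) (Z : ℝ → Set Γ)
    (Ec F : YY k N → (CY k N →⋆ₐ[ℂ] (K →L[ℂ] K))),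
    LegN μ w ι a a' π lam W Ω m q Z Ec F → W0 Ec F

/-- **[N-RKI]** (helper644, on `H618.RkStmt`) -/
def RkIStmt [MeasurableSpace k] (μ : Measure k) : Prop :=
  ∀ {N : ℕ} {E Γ K : Type} [Group E] [TopologicalSpace E] [Group Γ] [NormedAddCommGroup K]
    [InnerProductSpace ℂ K] [CompleteSpace K] (w : kˣ) (ι : GG k N →* E)
    (a a' : E →* PG k (N + 1)) (π : E →* (K →L[ℂ] K)) (lam : Γ →* (K →L[ℂ] K))
    (W : Set (K →L[ℂ] K)) (Ω : K) (m : Set Γ → (K →L[ℂ] K)) (q : Γ → GG k N) (Z : ℝ → Set Γ)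
    (Ec F : YY k N → (CY k N →⋆ₐ[ℂ] (K →L[ℂ] K))),
    LegN μ w ι a a' π lam W Ω m q Z Ec F → W0 Ec F →
    ∃ G : ∀ j, Gr k (Fin (N + 1)) j → (CG k N j →⋆ₐ[ℂ] (K →L[ℂ] K)), CalN ι π lam W q Ec F G

/-- **[N-K]** (NJB), the only estimate behind KEY: `b` = localiser point, `l` = middle line, `z` =
intersection of `l` with the wall hyperplane, `ν = b + z`. The elements of `S` are near-wall for
the dual picture, with attracting hyperplane in `A`; `f` lives off the hyperplanes of `A`. -/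
def NJBStmt : Prop :=
  ∀ {N : ℕ}, 2 ≤ N → ∃ D : Set (CG k N 2), closure (Submodule.span ℂ D : Set (CG k N 2)) = Set.univ ∧
  ∀ {Γ K : Type} [Group Γ] [NormedAddCommGroup K] [InnerProductSpace ℂ K] [CompleteSpace K]
    (q : Γ → GG k N) (Z : ℝ → Set Γ), (∀ R, UD q (Z R)) →
    ∀ (b z : CG k N 1 →⋆ₐ[ℂ] (K →L[ℂ] K)) (l ν : CG k N 2 →⋆ₐ[ℂ] (K →L[ℂ] K)),
      PL z l → PL z ν → PL b ν →
    ∀ (R : ℝ) (A : Set (YY k N)) (f : CG k N 1) (g : CG k N 2), g ∈ D →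
      (∀ M ∈ closure A, ∀ x ∈ tsupport f, ¬ x.1 ≤ (hyp M).1) →
      ∃ T > 0, ∃ (C : ℝ) (d : ℕ), ∀ J : ℝ, 0 ≤ J → ∀ S : Finset Γ,
        (∀ γ ∈ S, γ ∈ NWA (fun γ => ct (q γ)) Z R T A ∧ Real.log (nm (ct (q γ))) ≤ J) →
        ∀ ξ : K, ∑ γ ∈ S, ‖b (actG (q γ)⁻¹ f) (l (actG (q γ)⁻¹ g) ξ)‖ ^ 2 ≤
          C * (1 + J) ^ d * ‖ξ‖ ^ 2

/-- **[N-KL]** (helper124, from `NJBStmt`) -/
def KeyStmt [MeasurableSpace k] (μ : Measure k) : Prop :=
  ∀ {N : ℕ} {E Γ K : Type} [Group E] [TopologicalSpace E] [Group Γ] [NormedAddCommGroup K]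
    [InnerProductSpace ℂ K] [CompleteSpace K] (w : kˣ) (ι : GG k N →* E)
    (a a' : E →* PG k (N + 1)) (π : E →* (K →L[ℂ] K)) (lam : Γ →* (K →L[ℂ] K))
    (W : Set (K →L[ℂ] K)) (Ω : K) (m : Set Γ → (K →L[ℂ] K)) (q : Γ → GG k N) (Z : ℝ → Set Γ)
    (Ec F : YY k N → (CY k N →⋆ₐ[ℂ] (K →L[ℂ] K)))
    (G : ∀ j, Gr k (Fin (N + 1)) j → (CG k N j →⋆ₐ[ℂ] (K →L[ℂ] K))),
    LegN μ w ι a a' π lam W Ω m q Z Ec F → CalN ι π lam W q Ec F G → H218.NC.Key₁ G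

/-- The first half of Team N: in one leg everything commutes. -/
def LegComm [MeasurableSpace k] (μ : Measure k) : Prop :=
  ∀ {N : ℕ} {E Γ K : Type} [Group E] [TopologicalSpace E] [Group Γ] [NormedAddCommGroup K]
    [InnerProductSpace ℂ K] [CompleteSpace K] (w : kˣ) (ι : GG k N →* E)
    (a a' : E →* PG k (N + 1)) (π : E →* (K →L[ℂ] K)) (lam : Γ →* (K →L[ℂ] K))
    (W : Set (K →L[ℂ] K)) (Ω : K) (m : Set Γ → (K →L[ℂ] K)) (q : Γ → GG k N) (Z : ℝ → Set Γ)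
    (Ec F : YY k N → (CY k N →⋆ₐ[ℂ] (K →L[ℂ] K))),
    LegN μ w ι a a' π lam W Ω m q Z Ec F →
    ∃ G : ∀ j, Gr k (Fin (N + 1)) j → (CG k N j →⋆ₐ[ℂ] (K →L[ℂ] K)),
      CalN ι π lam W q Ec F G ∧ H218.NC.Key₁ G

end stmts

theorem legComm_of {k : Type} [NontriviallyNormedField k] [ProperSpace k] [MeasurableSpace k]
    {μ : Measure k} (h1 : W0Stmt k μ) (h2 : RkIStmt k μ) (h3 : KeyStmt k μ) : LegComm k μ := by
  intro N E Γ K _ _ _ _ _ _ w ι a a' π lam W Ω m q Z Ec F h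
  obtain ⟨G, hG⟩ := h2 w ι a a' π lam W Ω m q Z Ec F h (h1 w ι a a' π lam W Ω m q Z Ec F h)
  exact ⟨G, hG, h3 w ι a a' π lam W Ω m q Z Ec F G h hG⟩

end Vale.Agent.P092.SN
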