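import Vale.Agent.P092.SN.Blocks2
import Vale.Agent.P092.H121.Cls
import Vale.Agent.P092.H835.MooreL
import Vale.Agent.P092.H644.RkI
import Vale.Agent.P092.H411.NAgr

/-!
P092, TEAM N (helper350): `ClsStmt` from helper121's abstract theorem `clsO_of` and helper835's
Moore set.
-/

set_option linter.all false

open scoped InnerProductSpace ENNReal LinearAlgebra.Projectivization ZeroAtInfty
open Filter Topology ContinuousLinearMap MeasureTheory TopologicalSpace Matrix

namespace Vale.Agent.P092.SN.ClsF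

open Vale.Agent.P092.SN
open Vale.Agent.P092.RC (Cm TRN Moore GG PG YY y0 ct)
open Vale.Agent.P092.H100.Gr (Gr)
open Vale.Agent.P092.H644.Gr3 (p1 hyp p1H hypH p1_le_hyp)
open Vale.Agent.P092.H644.RkI (tsupport_homeo)
open Vale.Agent.P092.H35 (sp)
open Vale.Agent.P092.H35.Sig (sgm)

section

variable {k : Type} [NontriviallyNormedField k] [ProperSpace k] {N : ℕ} {E Γ K : Type} [Group E]
  [TopologicalSpace E] [Group Γ] [NormedAddCommGroup K] [InnerProductSpace ℂ K] [CompleteSpace K]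

/-- a function of points as a function of `1`-dimensional subspaces -/
noncomputable def gp (f : CY k N) : CG k N 1 :=
  f.comp ((p1H (k := k) (ι := Fin (N + 1))).symm : C(Gr k (Fin (N + 1)) 1, YY k N))

noncomputable def gh (f : CY k N) : CG k N N :=
  f.comp ((hypH (k := k) (m := N)).symm : C(Gr k (Fin (N + 1)) N, YY k N))

theorem fp_gp (f : CY k N) : fp (gp f) = f := by
  ext x
  change f (p1H.symm (p1H x)) = f x
  rw [Homeomorph.symm_apply_apply]

theorem fh_gh (f : CY k N) : fh (gh f) = f := by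
  ext x
  change f (hypH.symm (hypH x)) = f x
  rw [Homeomorph.symm_apply_apply]

theorem tsupport_gp (f : CY k N) :
    tsupport (gp f) = (p1H (k := k) (ι := Fin (N + 1))).symm ⁻¹' tsupport f :=
  tsupport_homeo _ f

theorem tsupport_gh (f : CY k N) :
    tsupport (gh f) = (hypH (k := k) (m := N)).symm ⁻¹' tsupport f :=
  tsupport_homeo _ f

theorem tsupport_fp (f : CG k N 1) :
    tsupport (fp f) = (p1H (k := k) (ι := Fin (N + 1))) ⁻¹' tsupport f :=
  tsupport_homeo (p1H (k := k) (ι := Fin (N + 1))) f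

theorem tsupport_fh (f : CG k N N) :
    tsupport (fh f) = (hypH (k := k) (m := N)) ⁻¹' tsupport f :=
  tsupport_homeo (hypH (k := k) (m := N)) f

/-- a homomorphism modulo scalars -/
noncomputable def qq (q : Γ → GG k N) (h : PH q) : Γ →* PG k (N + 1) := H644.RkI.qP q h

theorem lg_of [MeasurableSpace k] {μ : Measure k} {w : kˣ} {ι : GG k N →* E}
    {a a' : E →* PG k (N + 1)} {π : E →* (K →L[ℂ] K)} {lam : Γ →* (K →L[ℂ] K)}
    {W : Set (K →L[ℂ] K)} {Ω : K} {m : Set Γ → (K →L[ℂ] K)} {q : Γ → GG k N} {Z : ℝ → Set Γ}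
    {Ec F : YY k N → (CY k N →⋆ₐ[ℂ] (K →L[ℂ] K))}
    {G : ∀ j, Gr k (Fin (N + 1)) j → (CG k N j →⋆ₐ[ℂ] (K →L[ℂ] K))} (hk : H933.LocK k)
    (h : LegN μ w ι a a' π lam W Ω m q Z Ec F) (hC : CalN ι π lam W q Ec F G)
    (hK : H218.NC.Key₁ G) : H121.Lg a a' π lam W (qq q h.ph) Ec F := by
  have hN := h.adm.hN
  have e1 : ∀ b f, Ec b f = G 1 (p1 b) (gp f) := fun b f => by rw [hC.pnt, fp_gp]
  have e2 : ∀ b f, F b f = G N (hyp b) (gh f) := fun b f => by rw [hC.top, fh_gh]
  have hin : ∀ u v : CY k N,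
      (∀ x ∈ tsupport u, ∀ y ∈ tsupport v, ¬ Projectivization.orthogonal x y) →
      H232.Nin (fun x y => H218.NC.In x y) (gp u) (gh v) := by
    intro u v huv x hx y hy hxy
    rw [tsupport_gp] at hx
    rw [tsupport_gh] at hy
    refine huv _ hx _ hy ?_
    rw [← p1_le_hyp]
    have h1 : p1 (p1H.symm x) = x := p1H.apply_symm_apply x
    have h2 : hyp (hypH.symm y) = y := hypH.apply_symm_apply y
    rw [h1, h2]
    exact hxy
  refine ⟨h.adm.ort, ?_, ?_, ?_, ?_, ?_, h.e.pcov, h.f.pcov, ?_, ?_, h.e.cm, h.f.cm, ?_⟩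
  · intro b c f g
    rw [e1, e1]
    exact H218.NC.all_comm hN hC.cal hK 1 1 le_rfl (by omega) le_rfl (by omega) _ _ _ _
  · intro b c f g
    rw [e1, e2]
    exact H218.NC.all_comm hN hC.cal hK 1 N le_rfl (by omega) (by omega) le_rfl _ _ _ _
  · intro b c f g
    rw [e2, e2]
    exact H218.NC.all_comm hN hC.cal hK N N (by omega) le_rfl (by omega) le_rfl _ _ _ _
  · intro b c hbc u v huv
    rw [e1, e2]
    exact hC.cal.inc 1 N le_rfl (by omega) le_rfl _ _ (p1_le_hyp.2 hbc) _ _ (hin u v huv)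
  · intro b c hbc ξ hξ
    refine H218.NC.ninc hN hC.cal hK 1 N le_rfl (by omega) (by omega) le_rfl (p1 b) (hyp c)
      (fun hle => hbc (p1_le_hyp.1 hle)) ξ fun u v huv => ?_
    rw [hC.pnt, hC.top]
    refine hξ (fp u) (fh v) fun x hx y hy hxy => ?_
    rw [tsupport_fp] at hx
    rw [tsupport_fh] at hy
    exact huv _ hx _ hy (p1_le_hyp.2 hxy)
  · intro γ b f
    rw [h.e.cov]
    congr 1
  · intro γ
    refine ⟨⟨fun x => (ct (q γ))⁻¹ • x, continuous_const_smul _⟩, fun b f => ?_⟩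
    rw [h.f.cov]
    rfl
  · intro i j hij M hM hW hL hπ
    refine H411.zero_one_sub h.pic (H835.moore_line hk h.adm hij.symm) hM hW hL ?_
    intro g hg ζ hζ
    have h1 : ∀ e : E, (∀ x : YY k N, x.submodule ≤ Submodule.span k
        {(Pi.single j 1 : Fin (N + 1) → k), Pi.single i 1} → a e • x = x) →
        H121.FixL i j (a e) := by
      intro e he α β hv
      refine he _ ?_
      rw [H121.pt_of hv]
      change (Projectivization.mk k _ hv).submodule ≤ _
      rw [Projectivization.submodule_mk, Submodule.span_singleton_le_iff_mem]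
      exact add_mem (Submodule.smul_mem _ _ (Submodule.subset_span (Or.inl rfl)))
        (Submodule.smul_mem _ _ (Submodule.subset_span (Or.inr rfl)))
    have h2 : ∀ x : YY k N, x.submodule ≤ Submodule.span k
        {(Pi.single j 1 : Fin (N + 1) → k), Pi.single i 1} → a g⁻¹ • x = x := fun x hx => by
      rw [map_inv, inv_smul_eq_iff, hg x hx]
    exact ⟨hπ g (h1 g hg) ζ hζ, hπ g⁻¹ (h1 g⁻¹ h2) ζ hζ⟩

end

theorem clsStmt {k : Type} [NontriviallyNormedField k] [ProperSpace k] [MeasurableSpace k]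
    {μ : Measure k} (hk : H933.LocK k) : ClsStmt k μ := by
  intro N E Γ K _ _ _ _ _ _ w ι a a' π lam W Ω m q Z Ec F G h hC hK
  have hL := lg_of hk h hC hK
  obtain ⟨Φ, hE, hF⟩ := H121.exists_phi hL
  haveI : Nontrivial K := ⟨Ω, 0, fun h0 => by
    have := h.pic.nΩ
    rw [h0, norm_zero] at this
    exact zero_ne_one this⟩
  obtain ⟨σ, hσ⟩ := H121.clsO_of hL hE hF h.adm.hN h.adm.comp
  exact ⟨σ, _, hσ.nd, hσ.cm, hσ.cov, hσ.pcov, hσ.mulE⟩

end Vale.Agent.P092.SN.ClsF
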