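import Vale.Agent.P092.SN.FinS
import Vale.Agent.P092.UN.NfA
import Vale.Agent.P092.H387.Hp
import Vale.Agent.P092.H618.Hmi

/-!
P092, TEAM N (helper350): **every ICC lattice of `SL_n(k)/Z`, `Z` central, `n ≥ 3`, `k` any local
field, is `W*`-superrigid** (`t = 1`). The concrete picture: helper859, 387, 368, 805, 776, 725, 337;
the positions (block N-GAPB): helper100, 618, 218, 411, 307, 729, 632, 87, 541, 85, 221, 473, 584,
515, 387.
-/

set_option linter.all false

open scoped InnerProductSpace ENNReal LinearAlgebra.Projectivization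
open Filter Topology ContinuousLinearMap MeasureTheory TopologicalSpace

namespace Vale.Agent.P092.SN.End

open Vale.Agent.P092.SR Vale.Agent.P092.H160
open Vale.Agent.P092.RC (GG PG YY ct KK pic Om)
open Vale.Agent.P092.SN (CY nm PH Adm bw ExStmt ExSl)
open Vale.Agent.P092.H933 (LocK)
open Vale.Agent.P092.H387.Ex (PosStmt)
open Vale.Agent.P092.H387.Ad (PS)

variable {k : Type} [NontriviallyNormedField k] [ProperSpace k] {N : ℕ}

/-- **[N-GAPB]** the positions for every admissible source group -/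
theorem posStmt {E : Type} [Group E] [TopologicalSpace E] [IsTopologicalGroup E]
    [LocallyCompactSpace E] [SecondCountableTopology E] [T2Space E] (hk : LocK k)
    {ι : GG k N →* E} {a a' : E →* PG k (N + 1)} (hA : Adm ι a a') : PosStmt ι a := by
  rcases Nat.eq_or_lt_of_le hA.hN with h | h
  · exact H387.Ex.posStmt_two hk hA h.symm
  · intro _ _ Γ _ _ _ _ ν _ hν Λ _ _ hΛ α hα w hw q hq hd
    have hph : PH q := H387.Ad.ph_of_hom q (a.comp Γ.subtype) hq
    obtain ⟨m, rfl⟩ : ∃ m, N = m + 1 := ⟨N - 1, by omega⟩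
    haveI := H387.Ex.noncompact_of_adm hA
    refine H387.Hp.pos_of hν hα hk (by omega) hA.cι hA.ca (H368.SN.ad0_of hA).a_ι hw hph hd ?_
    intro gap c C hc hcrt hg i₀ h0 h1
    exact H618.Hmi.hmi hν hα hΛ hk hA.cι hw hph hc hcrt
      (fun g F _ => H618.Hmi.massX_eq hν hα g F) hg i₀ h0 h1

section ex

variable [MeasurableSpace k] [BorelSpace k] {μ : Measure k} [μ.IsAddHaarMeasure]

theorem exSl (hk : LocK k) : ExSl k μ :=
  H387.Ex.exSl_of hk fun {N} hN _ _ => posStmt hk (H387.Ad.adm_sl' hk hN)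

theorem exPs (hk : LocK k) : ExPs k μ := by
  intro N hN
  exact H387.Ex.exPs' hk (fun {N} hN => posStmt hk
    (H387.Ad.adm_psl hk hN (Subgroup.center (GG k N)) le_rfl)) hN

end ex

/-- **Every ICC lattice in `SL_n(ℝ)`, `n ≥ 3`, is `W*`-superrigid** -/
theorem finalR : St.FinalR :=
  finalR1 (exSl (H933.LocK.real (RingEquiv.refl ℝ) fun _ => rfl))

/-- **Every ICC lattice in `SL_n(k)`, `n ≥ 3`, `k` any local field, is `W*`-superrigid** -/
theorem final1 : St.Final1 :=
  final11 fun _ _ _ _ _ _ _ hk => exSl hk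

/-- **Every ICC lattice in `SL_n(k)`, `PSL_n(k)`, `n ≥ 3`, `k` any local field, is
`W*`-superrigid** -/
theorem final1S : SNS.St.Final1S :=
  final1S1 fun _ _ _ _ _ _ _ hk => exPs hk

theorem coreE_psl (k : Type) [NontriviallyNormedField k] [ProperSpace k] (hk : H515.St.LocK k)
    (n : ℕ) (hn : 3 ≤ n) : CoreE (PS n k) := by
  letI : MeasurableSpace k := borel k
  haveI : BorelSpace k := ⟨rfl⟩
  exact coreE_ps (legComm (lk hk)) (ClsF.clsStmt (lk hk)) (H325.xcStmt k)
    (exPs (μ := (Measure.addHaar : Measure k)) (lk hk)) hn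

/-- **Team N in UN letters, one factor, `t = 1`** -/
theorem superS : ∀ (Γ : Type) [Group Γ], UN.LatticeS Γ → UN.Super Γ :=
  UN.super_latticeS fun k _ _ hk n hn => coreE_psl k hk n hn

/-- `PSL_n(ℤ)`, `n ≥ 3` -/
theorem superPZ (n : ℕ) (hn : 3 ≤ n) :
    UN.Super (Matrix.SpecialLinearGroup (Fin n) ℤ ⧸
      Subgroup.center (Matrix.SpecialLinearGroup (Fin n) ℤ)) := by
  obtain ⟨h1, h2, h3⟩ := H387.Ad.psl_Z n
  exact UN.super_of (super_of_coreE (coreE_psl ℝ SNS.locK_real n hn) h1 _ h2 h3)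

/-- `SL_n(ℤ)`, `n ≥ 3` odd -/
theorem superZ (n : ℕ) (hn : 3 ≤ n) (hodd : Odd n) :
    UN.Super (Matrix.SpecialLinearGroup (Fin n) ℤ) := by
  refine UN.super_of ?_
  have h1 : SR.St.Super (⊤ : Subgroup (Matrix.SpecialLinearGroup (Fin n) ℤ)) := by
    refine finalR.2 n hn ⊤ inferInstance fun g _ hg => ?_
    have h2 := g.2
    rw [hg, Matrix.det_neg, Matrix.det_one, Fintype.card_fin, hodd.neg_one_pow] at h2
    norm_num at h2
  exact H58.super_equiv Subgroup.topEquiv.symm h1

end Vale.Agent.P092.SN.End
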