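import Vale.Agent.P092.SN.Main
import Vale.Agent.P092.SN.ClsF
import Vale.Agent.P092.H596.N.W0
import Vale.Agent.P092.H644.RkFin
import Vale.Agent.P092.H124.KL4
import Vale.Agent.P092.H914.Fin
import Vale.Agent.P092.H325.NXs

/-!
P092, TEAM N (helper350): the blocks that are theorems are plugged into `SN/Main.lean`.

`w0Stmt` (helper437, 596, 890), `rkIStmt` (helper644, 560), `keyStmt` (helper124) with `njbStmt`
(helper589, 914), `xcStmt` (helper325), `clsStmt` (helper121, 835). What is left: `ExSl`.
-/

set_option linter.all false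

open Filter Topology MeasureTheory
open scoped Matrix

namespace Vale.Agent.P092.SN

section fin

/-- **all projection valued commutation relations of one leg, every local field** -/
theorem legComm {k : Type} [NontriviallyNormedField k] [ProperSpace k] [MeasurableSpace k]
    [BorelSpace k] {μ : Measure k} [IsFiniteMeasureOnCompacts μ] [μ.IsOpenPosMeasure]
    (hk : H933.LocK k) : LegComm k μ :=
  legComm_of (H596.N.w0Stmt hk) H644.rkIStmt (H124.KL.keyStmt (H914.njbStmt hk))

/-- **the core statement for a source group `E` with one factor, from the concrete picture** -/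
theorem coreE_one {k : Type} [NontriviallyNormedField k] [ProperSpace k] [MeasurableSpace k]
    [BorelSpace k] {μ : Measure k} [IsFiniteMeasureOnCompacts μ] [μ.IsOpenPosMeasure]
    (hk : H933.LocK k) {N : ℕ} {E : Type} [Group E] [TopologicalSpace E]
    [IsTopologicalGroup E] [LocallyCompactSpace E] [SecondCountableTopology E] [T2Space E]
    [NoncompactSpace E] {ι : RC.GG k N →* E} {a a' : E →* RC.PG k (N + 1)}
    (hEx : ExStmt k μ ι a a') : CoreE E :=
  coreE_of (legComm hk) (ClsF.clsStmt hk) (H325.xcStmt k) hEx

/-- **`FinalR` modulo `ExSl`** -/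
theorem finalR1 (h6 : ExSl ℝ volume) : St.FinalR :=
  have hk : H933.LocK ℝ := H933.LocK.real (RingEquiv.refl ℝ) fun _ => rfl
  finalR_of fun _ hn => coreE_sl (legComm hk) (ClsF.clsStmt hk) (H325.xcStmt ℝ) h6 hn

/-- **`Final1` modulo `ExSl`** -/
theorem final11 (h : ∀ (k : Type) [NontriviallyNormedField k] [ProperSpace k] [MeasurableSpace k]
    [BorelSpace k] (μ : Measure k) [μ.IsAddHaarMeasure], H933.LocK k → ExSl k μ) : St.Final1 := by
  refine final1_of fun k _ _ hk n hn => ?_
  letI : MeasurableSpace k := borel k
  haveI : BorelSpace k := ⟨rfl⟩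
  exact coreE_sl (legComm (lk hk)) (ClsF.clsStmt (lk hk)) (H325.xcStmt k)
    (h k (Measure.addHaar : Measure k) (lk hk)) hn

end fin

end Vale.Agent.P092.SN
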