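import Vale.Agent.P092.SN.Fin
import Vale.Agent.P092.H387.FinS

/-!
P092, TEAM N (helper350): the assembly for the source groups `PSL_n(k) = SL_n(k) ⧸ center`: the
statement `SNS.St.Final1S` (helper387) modulo `ExPs`.
-/

set_option linter.all false

open Filter Topology MeasureTheory
open scoped Matrix

namespace Vale.Agent.P092.SN

section fins

open Vale.Agent.P092.RC (GG PG YY)
open Vale.Agent.P092.H387.Ad (PS spq)
open Vale.Agent.P092.H644.PGr (tauP)

/-- **[N-EX]** for `E = PSL_n(k)`, all `n ≥ 3` -/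
def ExPs (k : Type) [NontriviallyNormedField k] [ProperSpace k] [MeasurableSpace k]
    (μ : Measure k) : Prop :=
  ∀ {N : ℕ}, 2 ≤ N → ExStmt k μ (E := PS (N + 1) k)
    (QuotientGroup.mk' (Subgroup.center (GG k N))) (spq k N (Subgroup.center (GG k N)) le_rfl)
    ((tauP k (N + 1)).comp (spq k N (Subgroup.center (GG k N)) le_rfl))

theorem nc_ps {k : Type} [NontriviallyNormedField k] [ProperSpace k] {N : ℕ} (hN : 1 ≤ N) :
    NoncompactSpace (PS (N + 1) k) := by
  refine ⟨fun h => ?_⟩
  have h1 := H793.proper_mk (G := GG k N) (Subgroup.center (GG k N))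
    (H387.Ad.finite_center_sl (N + 1) k).isCompact Set.univ h
  rw [Set.preimage_univ] at h1
  haveI : NoncompactSpace (GG k N) := by
    refine H34.PicC.sl_noncompact (i := (0 : Fin (N + 1))) (j := ⟨1, by omega⟩) ?_
    intro h
    exact absurd (congrArg Fin.val h) (by norm_num)
  exact noncompact_univ (GG k N) h1

/-- The core statement for `PSL_n(k)`, `n ≥ 3`. -/
theorem coreE_ps {k : Type} [NontriviallyNormedField k] [ProperSpace k] [MeasurableSpace k]
    {μ : Measure k} (hLC : LegComm k μ) (hCls : ClsStmt k μ) (hXC : XCStmt k) (hEx : ExPs k μ)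
    {n : ℕ} (hn : 3 ≤ n) : CoreE (PS n k) := by
  obtain ⟨N, rfl⟩ : ∃ N, n = N + 1 := ⟨n - 1, by omega⟩
  haveI : NoncompactSpace (PS (N + 1) k) := nc_ps (by omega)
  exact coreE_of (E := PS (N + 1) k) hLC hCls hXC (hEx (by omega))

/-- **`Final1S` modulo `ExPs`** -/
theorem final1S1 (h : ∀ (k : Type) [NontriviallyNormedField k] [ProperSpace k]
    [MeasurableSpace k] [BorelSpace k] (μ : Measure k) [μ.IsAddHaarMeasure], H933.LocK k →
    ExPs k μ) : SNS.St.Final1S := by
  refine SNS.final1S_of fun k _ _ hk n hn => ?_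
  letI : MeasurableSpace k := borel k
  haveI : BorelSpace k := ⟨rfl⟩
  exact coreE_ps (legComm (lk hk)) (ClsF.clsStmt (lk hk)) (H325.xcStmt k)
    (h k (Measure.addHaar : Measure k) (lk hk)) hn

end fins

end Vale.Agent.P092.SN
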