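import Vale.Agent.P092.SR.St

/-!
P092, Team N (helper350): literal forms of the final statements for lattices in `SL_n(k)`, `n ≥ 3`,
`k` a local field, and in finite products of such groups. Only definitions.
-/

open Vale.Agent.P092.H160.St Vale.Agent.P092.H103.St Vale.Agent.P092.H515.St
open Vale.Agent.P092.SR.St

namespace Vale.Agent.P092.SN.St

/-- `Γ` is an ICC lattice in `SL_n(k)` for some `n ≥ 3`. -/
def SlLatticeOver (k : Type) [NontriviallyNormedField k] (Γ : Type) [Group Γ] : Prop :=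
  ICC Γ ∧ ∃ (n : ℕ) (i : Γ →* Matrix.SpecialLinearGroup (Fin n) k),
    3 ≤ n ∧ Function.Injective i ∧ IsLattice i.range

/-- `Γ` is an ICC lattice in `SL_n(k)` for some `n ≥ 3` and some local field `k`. -/
def SlLattice (Γ : Type) [Group Γ] : Prop :=
  ICC Γ ∧ ∃ (k : Type) (_ : NontriviallyNormedField k) (n : ℕ)
    (i : Γ →* Matrix.SpecialLinearGroup (Fin n) k),
    ProperSpace k ∧ LocK k ∧ 3 ≤ n ∧ Function.Injective i ∧ IsLattice i.range

/-- `Γ` is an ICC lattice (irreducible or not) in a product of finitely many groups `SL_n(k)`,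
`n ≥ 3`, `k` a local field. -/
def SlProdLattice (Γ : Type) [Group Γ] : Prop :=
  ICC Γ ∧ ∃ (I : Type) (_ : Fintype I) (k : I → Type) (_ : ∀ j, NontriviallyNormedField (k j))
    (n : I → ℕ) (i : Γ →* ∀ j, Matrix.SpecialLinearGroup (Fin (n j)) (k j)),
    (∀ j, ProperSpace (k j)) ∧ (∀ j, LocK (k j)) ∧ (∀ j, 3 ≤ n j) ∧ Function.Injective i ∧
    IsLattice i.range

/-- Version `k = ℝ`, `t = 1`. -/
def FinalR : Prop :=
  (∀ (Γ : Type) [Group Γ], SlLatticeOver ℝ Γ → Super Γ) ∧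
  ∀ n : ℕ, 3 ≤ n → ∀ Γ : Subgroup (Matrix.SpecialLinearGroup (Fin n) ℤ), Γ.FiniteIndex →
    (∀ g ∈ Γ, (g : Matrix (Fin n) (Fin n) ℤ) ≠ -1) → Super Γ

/-- Version for all local fields, `t = 1`. -/
def Final1 : Prop :=
  (∀ (Γ : Type) [Group Γ], SlLattice Γ → Super Γ) ∧
  ∀ n : ℕ, 3 ≤ n → ∀ Γ : Subgroup (Matrix.SpecialLinearGroup (Fin n) ℤ), Γ.FiniteIndex →
    (∀ g ∈ Γ, (g : Matrix (Fin n) (Fin n) ℤ) ≠ -1) → Super Γ

/-- Version for all local fields and all `t`. -/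
def FinalAll : Prop :=
  (∀ (Γ : Type) [Group Γ], SlLattice Γ → SuperAll Γ) ∧
  ∀ n : ℕ, 3 ≤ n → ∀ Γ : Subgroup (Matrix.SpecialLinearGroup (Fin n) ℤ), Γ.FiniteIndex →
    (∀ g ∈ Γ, (g : Matrix (Fin n) (Fin n) ℤ) ≠ -1) → SuperAll Γ

end Vale.Agent.P092.SN.St
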